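import Mathlib

/-! # P227, block LIM, part 1: compactness for uniformly locally Lipschitz sequences -/

open MeasureTheory Set Metric Filter Topology
open scoped ENNReal NNReal

namespace Vale.Agent.P227.M.Lim

/-- Arzela-Ascoli for pointwise convergence of uniformly locally Lipschitz sequences on a separable proper space -/
theorem exists_subseq {E X : Type*} [NormedAddCommGroup E] [NormedSpace ℝ E] [FiniteDimensional ℝ E]
    [NormedAddCommGroup X] [NormedSpace ℝ X] [FiniteDimensional ℝ X] (F : ℕ → E → X) (B : ℝ)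
    (hB : ∀ k, ‖F k 0‖ ≤ B) (L : ℝ → ℝ)
    (hL : ∀ R, ∀ k y y', ‖y‖ ≤ R → ‖y'‖ ≤ R → ‖F k y - F k y'‖ ≤ L R * ‖y - y'‖) :
    ∃ ψ : ℕ → ℕ, StrictMono ψ ∧ ∃ G : E → X, ∀ y, Tendsto (fun k => F (ψ k) y) atTop (𝓝 (G y)) := by
  have : ProperSpace X := FiniteDimensional.proper ℝ X
  have : ProperSpace E := FiniteDimensional.proper ℝ E
  -- pointwise bounds
  have hbd : ∀ y : E, ∀ k, F k y ∈ closedBall (0 : X) (B + |L ‖y‖| * ‖y‖) := by
    intro y k
    rw [mem_closedBall_zero_iff]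
    have h1 := hL ‖y‖ k y 0 le_rfl (by simp)
    rw [sub_zero] at h1
    have h2 : ‖F k y‖ ≤ ‖F k y - F k 0‖ + ‖F k 0‖ := by
      have := norm_add_le (F k y - F k 0) (F k 0)
      rwa [sub_add_cancel] at this
    have h3 : L ‖y‖ * ‖y‖ ≤ |L ‖y‖| * ‖y‖ := mul_le_mul_of_nonneg_right (le_abs_self _) (norm_nonneg _)
    have h4 := hB k
    linarith
  let d : ℕ → E := TopologicalSpace.denseSeq E
  have hK : IsCompact (Set.pi Set.univ (fun i : ℕ => closedBall (0 : X) (B + |L ‖d i‖| * ‖d i‖))) :=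
    isCompact_univ_pi fun i => isCompact_closedBall _ _
  obtain ⟨g, -, ψ, hψ, hg⟩ := hK.tendsto_subseq (x := fun k i => F k (d i)) (fun k i _ => hbd (d i) k)
  rw [tendsto_pi_nhds] at hg
  refine ⟨ψ, hψ, ?_⟩
  have hc : ∀ y, CauchySeq (fun k => F (ψ k) y) := by
    intro y
    rw [Metric.cauchySeq_iff']
    intro ε hε
    set R := ‖y‖ + 1 with hR
    set C := |L R| + 1 with hC
    have hCpos : 0 < C := by positivity
    -- a dense point near y
    have hδ : 0 < min 1 (ε / (4 * C)) := lt_min one_pos (by positivity)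
    obtain ⟨i, hi⟩ := (TopologicalSpace.denseRange_denseSeq E).exists_dist_lt y hδ
    have hi1 : ‖y - d i‖ < 1 := by rw [← dist_eq_norm]; exact hi.trans_le (min_le_left _ _)
    have hi2 : ‖y - d i‖ < ε / (4 * C) := by rw [← dist_eq_norm]; exact hi.trans_le (min_le_right _ _)
    have hyR : ‖y‖ ≤ R := by rw [hR]; linarith
    have hdR : ‖d i‖ ≤ R := by
      have : ‖d i‖ ≤ ‖y‖ + ‖y - d i‖ := by
        have := norm_sub_le y (y - d i)
        rwa [sub_sub_cancel] at this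
      rw [hR]; linarith
    have hcau := (hg i).cauchySeq
    rw [Metric.cauchySeq_iff'] at hcau
    obtain ⟨N, hN⟩ := hcau (ε / 4) (by positivity)
    refine ⟨N, fun k hk => ?_⟩
    have key : ∀ m, ‖F m y - F m (d i)‖ ≤ ε / 4 := by
      intro m
      have h1 := hL R m y (d i) hyR hdR
      have h2 : L R * ‖y - d i‖ ≤ C * (ε / (4 * C)) := by
        have h3 : L R ≤ C := by rw [hC]; linarith [le_abs_self (L R)]
        calc L R * ‖y - d i‖ ≤ C * ‖y - d i‖ := mul_le_mul_of_nonneg_right h3 (norm_nonneg _)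
          _ ≤ C * (ε / (4 * C)) := mul_le_mul_of_nonneg_left hi2.le hCpos.le
      have h4 : C * (ε / (4 * C)) = ε / 4 := by field_simp
      linarith
    have h5 := hN k hk
    simp only [Function.comp_def] at h5
    rw [dist_eq_norm] at h5 ⊢
    have h6 := key (ψ k)
    have h7 := key (ψ N)
    have h8 : F (ψ k) y - F (ψ N) y = (F (ψ k) y - F (ψ k) (d i)) + (F (ψ k) (d i) - F (ψ N) (d i)) - (F (ψ N) y - F (ψ N) (d i)) := by
      abel
    rw [h8]
    calc ‖(F (ψ k) y - F (ψ k) (d i)) + (F (ψ k) (d i) - F (ψ N) (d i)) - (F (ψ N) y - F (ψ N) (d i))‖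
        ≤ ‖(F (ψ k) y - F (ψ k) (d i)) + (F (ψ k) (d i) - F (ψ N) (d i))‖ + ‖F (ψ N) y - F (ψ N) (d i)‖ := norm_sub_le _ _
      _ ≤ ‖F (ψ k) y - F (ψ k) (d i)‖ + ‖F (ψ k) (d i) - F (ψ N) (d i)‖ + ‖F (ψ N) y - F (ψ N) (d i)‖ := by
          gcongr
          exact norm_add_le _ _
      _ < ε := by linarith
  choose G hG using fun y => cauchySeq_tendsto_of_complete (hc y)
  exact ⟨G, hG⟩

end Vale.Agent.P227.M.Lim
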