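import Vale.Agent.P227.M.Lim.L2

/-! # P227, block LIM, part 3: compactness of the class `C21` -/

open MeasureTheory Set Metric Filter Topology
open scoped ENNReal NNReal

namespace Vale.Agent.P227.M.Lim

variable {E : Type*} [NormedAddCommGroup E] [InnerProductSpace ℝ E] [FiniteDimensional ℝ E]

theorem M_nonneg_of {a b M : ℝ} {φ : E → ℝ} {G : E → E} {H : E → E →L[ℝ] E} (h : C21 a b M φ G H) (y v : E) :
    0 ≤ M * ‖v‖ := by
  have := h.lip (y + v) y
  rw [add_sub_cancel_left] at this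
  exact (norm_nonneg _).trans this

/-- closedness of the class under pointwise convergence -/
theorem C21.of_tendsto {a b M : ℝ} (ha : 0 ≤ a) (hb : 0 ≤ b) {φ : ℕ → E → ℝ} {G : ℕ → E → E} {H : ℕ → E → E →L[ℝ] E}
    (h : ∀ k, C21 a b M (φ k) (G k) (H k)) {φ' : E → ℝ} {G' : E → E} {H' : E → E →L[ℝ] E}
    (hφ : ∀ y, Tendsto (fun k => φ k y) atTop (𝓝 (φ' y))) (hG : ∀ y, Tendsto (fun k => G k y) atTop (𝓝 (G' y)))
    (hH : ∀ y, Tendsto (fun k => H k y) atTop (𝓝 (H' y))) : C21 a b M φ' G' H' := by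
  have hM : ∀ v : E, 0 ≤ M * ‖v‖ := fun v => M_nonneg_of (h 0) 0 v
  have hT1 : ∀ y v, ‖G' (y + v) - G' y - H' y v‖ ≤ M * ‖v‖ * ‖v‖ := by
    intro y v
    have h1 : Tendsto (fun k => ‖G k (y + v) - G k y - H k y v‖) atTop (𝓝 ‖G' (y + v) - G' y - H' y v‖) := by
      refine (((hG _).sub (hG _)).sub ?_).norm
      exact ((ContinuousLinearMap.apply ℝ E v).continuous.tendsto _).comp (hH y)
    exact le_of_tendsto' h1 fun k => (h k).G_taylor y v
  have hT2 : ∀ y v, |φ' (y + v) - φ' y - inner ℝ (G' y) v| ≤ b * ‖v‖ * ‖v‖ := by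
    intro y v
    have h1 : Tendsto (fun k => |φ k (y + v) - φ k y - inner ℝ (G k y) v|) atTop
        (𝓝 |φ' (y + v) - φ' y - inner ℝ (G' y) v|) :=
      (((hφ _).sub (hφ _)).sub ((hG y).inner tendsto_const_nhds)).abs
    exact le_of_tendsto' h1 fun k => (h k).phi_taylor ha hb y v
  refine ⟨fun y => ?_, fun y => ?_, fun y v => ?_, fun y v => ?_, fun y y' => ?_, fun y => ?_⟩
  · rw [hasGradientAt_iff_hasFDerivAt]
    rw [hasFDerivAt_iff_isLittleO_nhds_zero]
    refine Asymptotics.IsBigO.trans_isLittleO (g := fun v : E => ‖v‖ * ‖v‖) (Asymptotics.IsBigO.of_bound b (Eventually.of_forall fun v => ?_)) ?_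
    · have := hT2 y v
      rw [Real.norm_eq_abs, norm_mul, norm_norm]
      simpa [mul_assoc] using this
    · have h1 : (fun v : E => ‖v‖ * ‖v‖) =o[𝓝 0] fun v : E => ‖v‖ := by
        have h2 : (fun v : E => ‖v‖) =o[𝓝 0] fun _ : E => (1 : ℝ) := by
          rw [Asymptotics.isLittleO_one_iff]
          simpa using (continuous_norm.tendsto (0 : E))
        simpa using h2.mul_isBigO (Asymptotics.isBigO_refl (fun v : E => ‖v‖) (𝓝 0))
      exact h1.of_norm_right
  · rw [hasFDerivAt_iff_isLittleO_nhds_zero]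
    refine Asymptotics.IsBigO.trans_isLittleO (g := fun v : E => ‖v‖ * ‖v‖) (Asymptotics.IsBigO.of_bound M (Eventually.of_forall fun v => ?_)) ?_
    · have := hT1 y v
      rw [norm_mul, norm_norm]
      simpa [mul_assoc] using this
    · have h1 : (fun v : E => ‖v‖ * ‖v‖) =o[𝓝 0] fun v : E => ‖v‖ := by
        have h2 : (fun v : E => ‖v‖) =o[𝓝 0] fun _ : E => (1 : ℝ) := by
          rw [Asymptotics.isLittleO_one_iff]
          simpa using (continuous_norm.tendsto (0 : E))
        simpa using h2.mul_isBigO (Asymptotics.isBigO_refl (fun v : E => ‖v‖) (𝓝 0))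
      exact h1.of_norm_right
  · have h1 : Tendsto (fun k => (inner ℝ (H k y v) v : ℝ)) atTop (𝓝 (inner ℝ (H' y v) v)) :=
      Tendsto.inner (((ContinuousLinearMap.apply ℝ E v).continuous.tendsto _).comp (hH y)) tendsto_const_nhds
    exact ge_of_tendsto' h1 fun k => (h k).lower y v
  · have h1 : Tendsto (fun k => (inner ℝ (H k y v) v : ℝ)) atTop (𝓝 (inner ℝ (H' y v) v)) :=
      Tendsto.inner (((ContinuousLinearMap.apply ℝ E v).continuous.tendsto _).comp (hH y)) tendsto_const_nhds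
    exact le_of_tendsto' h1 fun k => (h k).upper y v
  · exact le_of_tendsto' ((hH y).sub (hH y')).norm fun k => (h k).lip y y'
  · exact tendsto_nhds_unique (hφ (-y)) (by simpa only [(h _).even] using hφ y)

/-- sequential compactness of the class -/
theorem exists_limit {a b M B : ℝ} (ha : 0 ≤ a) (hb : 0 ≤ b) {φ : ℕ → E → ℝ} {G : ℕ → E → E} {H : ℕ → E → E →L[ℝ] E}
    (h : ∀ k, C21 a b M (φ k) (G k) (H k)) (hB : ∀ k, |φ k 0| ≤ B) :
    ∃ ψ : ℕ → ℕ, StrictMono ψ ∧ ∃ (φ' : E → ℝ) (G' : E → E) (H' : E → E →L[ℝ] E), C21 a b M φ' G' H' ∧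
      (∀ y, Tendsto (fun k => φ (ψ k) y) atTop (𝓝 (φ' y))) ∧ (∀ y, Tendsto (fun k => G (ψ k) y) atTop (𝓝 (G' y))) ∧
      (∀ y, Tendsto (fun k => H (ψ k) y) atTop (𝓝 (H' y))) := by
  let F : ℕ → E → (E →L[ℝ] E) × E × ℝ := fun k y => (H k y, G k y, φ k y)
  obtain ⟨ψ, hψ, F', hF'⟩ := exists_subseq F (max b (max 0 B))
    (fun k => by
      simp only [F, Prod.norm_mk, (h k).G_zero, norm_zero]
      refine max_le_max ((h k).norm_le ha hb 0) (max_le_max le_rfl ?_)
      rw [Real.norm_eq_abs]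
      exact hB k)
    (fun R => max |M| (max b (b * R)))
    (fun R k y y' hy hy' => by
      have hN := norm_nonneg (y - y')
      have h1 : ‖H k y - H k y'‖ ≤ |M| * ‖y - y'‖ :=
        ((h k).lip y y').trans (mul_le_mul_of_nonneg_right (le_abs_self M) hN)
      have h2 : ‖G k y - G k y'‖ ≤ b * ‖y - y'‖ := (h k).G_lip ha hb y y'
      have h3 : ‖φ k y - φ k y'‖ ≤ (b * R) * ‖y - y'‖ := by
        obtain ⟨c, hc1, hc2⟩ := (h k).phi_mvt y' (y - y')
        rw [add_sub_cancel] at hc2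
        rw [hc2, Real.norm_eq_abs]
        refine (abs_real_inner_le_norm _ _).trans (mul_le_mul_of_nonneg_right ?_ hN)
        refine ((h k).G_norm_le ha hb _).trans (mul_le_mul_of_nonneg_left ?_ hb)
        have h4 : y' + c • (y - y') = (1 - c) • y' + c • y := by
          rw [smul_sub, sub_smul, one_smul]; abel
        rw [h4]
        calc ‖(1 - c) • y' + c • y‖ ≤ ‖(1 - c) • y'‖ + ‖c • y‖ := norm_add_le _ _
          _ = (1 - c) * ‖y'‖ + c * ‖y‖ := by
              rw [norm_smul, norm_smul, Real.norm_eq_abs, Real.norm_eq_abs, abs_of_pos hc1.1, abs_of_pos (by linarith [hc1.2])]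
          _ ≤ (1 - c) * R + c * R := by
              have := hc1.1
              have := hc1.2
              gcongr
          _ = R := by ring
      simp only [F, Prod.norm_def, Prod.fst_sub, Prod.snd_sub]
      refine max_le (h1.trans ?_) (max_le (h2.trans ?_) (h3.trans ?_))
      · exact mul_le_mul_of_nonneg_right (le_max_left _ _) hN
      · exact mul_le_mul_of_nonneg_right ((le_max_left _ _).trans (le_max_right _ _)) hN
      · exact mul_le_mul_of_nonneg_right ((le_max_right _ _).trans (le_max_right _ _)) hN)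
  have h1 : ∀ y, Tendsto (fun k => H (ψ k) y) atTop (𝓝 (F' y).1) := fun y => (continuous_fst.tendsto _).comp (hF' y)
  have h2 : ∀ y, Tendsto (fun k => G (ψ k) y) atTop (𝓝 (F' y).2.1) := fun y =>
    ((continuous_fst.comp continuous_snd).tendsto _).comp (hF' y)
  have h3 : ∀ y, Tendsto (fun k => φ (ψ k) y) atTop (𝓝 (F' y).2.2) := fun y =>
    ((continuous_snd.comp continuous_snd).tendsto _).comp (hF' y)
  exact ⟨ψ, hψ, fun y => (F' y).2.2, fun y => (F' y).2.1, fun y => (F' y).1,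
    C21.of_tendsto ha hb (fun k => h (ψ k)) h3 h2 h1, h3, h2, h1⟩

end Vale.Agent.P227.M.Lim
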